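import Vale.Agent.P251CF.DM

/-!
# P251C: the mapping telescope of a sequence
-/

set_option linter.unusedSectionVars false

open CategoryTheory MonoidalCategory Limits

namespace Vale.Agent.P251CF

open Vale.Agent.P251.G Vale.Agent.P251.G.LC Vale.Agent.P251.H Vale.Agent.P251.H.StabInput

universe v u

variable {M : Type u} [Category.{v} M] [MonoidalCategory M] [SymmetricCategory M]
    [MonoidalClosed M] [HasZeroMorphisms M] [HasColimitsOfSize.{0, 0} M] [StabInput M]

/-- the wedge of the terms of a sequence -/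
noncomputable abbrev wd (F : ℕ ⥤ M) : M := ∐ (fun n => F.obj n)

/-- the inclusion of a term in the wedge -/
noncomputable abbrev wI (F : ℕ ⥤ M) (n : ℕ) : F.obj n ⟶ wd F := Sigma.ι (fun n => F.obj n) n

/-- the shift by `N` -/
noncomputable def shf (F : ℕ ⥤ M) (N : ℕ) : wd F ⟶ wd F :=
  Sigma.desc (fun n => F.map (homOfLE (Nat.le_add_right n N)) ≫ wI F (n + N))

@[reassoc]
theorem wI_shf (F : ℕ ⥤ M) (N n : ℕ) :
    wI F n ≫ shf F N = F.map (homOfLE (Nat.le_add_right n N)) ≫ wI F (n + N) :=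
  Sigma.ι_desc _ _

theorem shf_zero (F : ℕ ⥤ M) : shf F 0 = 𝟙 _ := by
  apply Sigma.hom_ext
  intro n
  rw [wI_shf, Category.comp_id]
  change F.map (𝟙 n) ≫ wI F n = _
  rw [F.map_id, Category.id_comp]

theorem shf_succ (F : ℕ ⥤ M) (N : ℕ) : shf F N ≫ shf F 1 = shf F (N + 1) := by
  apply Sigma.hom_ext
  intro n
  rw [wI_shf_assoc, wI_shf, wI_shf, ← F.map_comp_assoc]
  rfl

/-- a class fixed by the shift vanishes -/
theorem eq_zero_of_shf {GG : ObjectProperty M} [IsTest GG] {T : M} (hT : GG T) (F : ℕ ⥤ M)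
    (b : PiM T (wd F)) (h : mapM T (shf F 1) b = b) : b = 0 := by
  have h1 : ∀ N, mapM T (shf F N) b = b := by
    intro N
    induction N with
    | zero => rw [shf_zero, mapM_id]
    | succ N ih => rw [← shf_succ, mapM_comp, ih, h]
  obtain ⟨s, y, hy⟩ := IsTest.exists_factor GG hT (fun n => F.obj n) b
  have h2 : mapM T (sigmaRet s (fun n => F.obj n) ≫ sigmaSub s (fun n => F.obj n)) b = b := by
    rw [← hy, ← mapM_comp, sigmaSub_sigmaRet_assoc]
  have h3 : shf F (s.sup id + 1) ≫ sigmaRet s (fun n => F.obj n) = 0 := by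
    apply Sigma.hom_ext
    intro n
    have hn : n + (s.sup id + 1) ∉ s := fun hs => by
      have := Finset.le_sup (f := id) hs
      change n + (s.sup id + 1) ≤ s.sup id at this
      omega
    rw [wI_shf_assoc, sigmaRet, Sigma.ι_desc, dif_neg hn, comp_zero, comp_zero]
  rw [← h2, ← h1 (s.sup id + 1), ← mapM_comp, reassoc_of% h3, zero_comp, mapM_zero_hom]

/-- the first attaching map -/
noncomputable abbrev tU (F : ℕ ⥤ M) : wd F ⨿ wd F ⟶ wd F := coprod.desc (𝟙 _) (shf F 1)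

/-- the second attaching map -/
noncomputable abbrev tV (F : ℕ ⥤ M) : wd F ⨿ wd F ⟶ wd F := coprod.desc (𝟙 _) (𝟙 _)

/-- the map of wedges -/
noncomputable abbrev wM {F G : ℕ ⥤ M} (a : F ⟶ G) : wd F ⟶ wd G :=
  Limits.Sigma.map (fun n => a.app n)

theorem wM_shf {F G : ℕ ⥤ M} (a : F ⟶ G) : wM a ≫ shf G 1 = shf F 1 ≫ wM a := by
  apply Sigma.hom_ext
  intro n
  rw [Sigma.ι_map_assoc, wI_shf, wI_shf_assoc, Sigma.ι_map, a.naturality_assoc]

theorem wM_tU {F G : ℕ ⥤ M} (a : F ⟶ G) : coprod.map (wM a) (wM a) ≫ tU G = tU F ≫ wM a := by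
  apply coprod.hom_ext
  · rw [coprod.inl_map_assoc, coprod.inl_desc, coprod.inl_desc_assoc, Category.comp_id,
      Category.id_comp]
  · rw [coprod.inr_map_assoc, coprod.inr_desc, coprod.inr_desc_assoc, wM_shf]

theorem wM_tV {F G : ℕ ⥤ M} (a : F ⟶ G) : coprod.map (wM a) (wM a) ≫ tV G = tV F ≫ wM a := by
  apply coprod.hom_ext
  · rw [coprod.inl_map_assoc, coprod.inl_desc, coprod.inl_desc_assoc, Category.comp_id,
      Category.id_comp]
  · rw [coprod.inr_map_assoc, coprod.inr_desc, coprod.inr_desc_assoc, Category.comp_id,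
      Category.id_comp]

/-- the map of telescopes -/
noncomputable def telMap {F G : ℕ ⥤ M} (a : F ⟶ G) : DM (tU F) (tV F) ⟶ DM (tU G) (tV G) :=
  dmDesc (coprod.map (wM a) (wM a) ▷ I M ≫ dmK _ _) (wM a ≫ coprod.inl ≫ dmJ _ _)
    (wM a ≫ coprod.inr ≫ dmJ _ _)
    (by rw [inc_naturality_assoc, inc_zero_dmK, reassoc_of% (wM_tU a)])
    (by rw [inc_naturality_assoc, inc_one_dmK, reassoc_of% (wM_tV a)])

theorem wM_id (F : ℕ ⥤ M) : wM (𝟙 F) = 𝟙 _ := by
  apply Sigma.hom_ext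
  intro n
  rw [Sigma.ι_map, NatTrans.id_app, Category.id_comp, Category.comp_id]

theorem wM_comp {F G H : ℕ ⥤ M} (a : F ⟶ G) (b : G ⟶ H) : wM (a ≫ b) = wM a ≫ wM b := by
  apply Sigma.hom_ext
  intro n
  rw [Sigma.ι_map, Sigma.ι_map_assoc, Sigma.ι_map, NatTrans.comp_app, Category.assoc]

/-- **The mapping telescope.** -/
noncomputable def Tel : (ℕ ⥤ M) ⥤ M where
  obj F := DM (tU F) (tV F)
  map a := telMap a
  map_id F := by
    apply dm_ext
    · rw [telMap, dmK_desc, wM_id, coprod.map_id_id, id_whiskerRight, Category.id_comp,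
        Category.comp_id]
    · rw [telMap, dmB_desc, wM_id, Category.id_comp, Category.comp_id]
    · rw [telMap, dmC_desc, wM_id, Category.id_comp, Category.comp_id]
  map_comp a b := by
    apply dm_ext
    · rw [telMap, telMap, telMap, dmK_desc, dmK_desc_assoc, Category.assoc, dmK_desc, wM_comp,
        ← comp_whiskerRight_assoc, coprod.map_map]
    · rw [telMap, telMap, telMap, dmB_desc, dmB_desc_assoc, Category.assoc, Category.assoc,
        dmB_desc, wM_comp, Category.assoc]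
    · rw [telMap, telMap, telMap, dmC_desc, dmC_desc_assoc, Category.assoc, Category.assoc,
        dmC_desc, wM_comp, Category.assoc]

/-- the wedge maps to the telescope -/
noncomputable def telW (F : ℕ ⥤ M) : wd F ⟶ Tel.obj F := coprod.inl ≫ dmJ (tU F) (tV F)

/-- the inclusion of a term in the telescope -/
noncomputable def telI (F : ℕ ⥤ M) (n : ℕ) : F.obj n ⟶ Tel.obj F := wI F n ≫ telW F

@[reassoc]
theorem telI_nat {F G : ℕ ⥤ M} (a : F ⟶ G) (n : ℕ) :
    a.app n ≫ telI G n = telI F n ≫ Tel.map a := by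
  change _ = (wI F n ≫ coprod.inl ≫ dmJ _ _) ≫ telMap a
  rw [Category.assoc, Category.assoc, telMap, dmB_desc, Sigma.ι_map_assoc]
  rfl

theorem dm_htpy {A B C T : M} (u : A ⟶ B) (v : A ⟶ C) (t : T ⟶ A) :
    MHtpy ((t ≫ u) ≫ coprod.inl ≫ dmJ u v) ((t ≫ v) ≫ coprod.inr ≫ dmJ u v) :=
  ⟨t ▷ I M ≫ dmK u v, by rw [inc_naturality_assoc, inc_zero_dmK, Category.assoc],
    by rw [inc_naturality_assoc, inc_one_dmK, Category.assoc]⟩

theorem telW_htpy (F : ℕ ⥤ M) :
    MHtpy (coprod.inl ≫ dmJ (tU F) (tV F)) (coprod.inr ≫ dmJ (tU F) (tV F)) := by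
  have h := dm_htpy (tU F) (tV F) coprod.inl
  rwa [coprod.inl_desc, coprod.inl_desc, Category.id_comp, Category.id_comp] at h

theorem shf_telW (F : ℕ ⥤ M) : MHtpy (shf F 1 ≫ telW F) (telW F) := by
  have h := dm_htpy (tU F) (tV F) coprod.inr
  rw [coprod.inr_desc, coprod.inr_desc, Category.id_comp] at h
  exact h.trans (telW_htpy F).symm

theorem telI_htpy (F : ℕ ⥤ M) {n m : ℕ} (h : n ≤ m) :
    MHtpy (F.map (homOfLE h) ≫ telI F m) (telI F n) := by
  induction m, h using Nat.le_induction with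
  | base =>
    change MHtpy (F.map (𝟙 n) ≫ _) _
    rw [F.map_id, Category.id_comp]
    exact MHtpy.refl _
  | succ m h ih =>
    refine MHtpy.trans ?_ ih
    have e : F.map (homOfLE (Nat.le_succ_of_le h)) ≫ telI F (m + 1) =
        F.map (homOfLE h) ≫ wI F m ≫ shf F 1 ≫ telW F := by
      rw [wI_shf_assoc, ← F.map_comp_assoc]
      rfl
    exact (MHtpy.of_eq e).trans (MHtpy.comp_left _ (MHtpy.comp_left _ (shf_telW F)))

/-- the map out of the wedge given by a cocone -/
noncomputable abbrev wD {F : ℕ ⥤ M} (c : Cocone F) : wd F ⟶ c.pt :=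
  Sigma.desc (fun n => c.ι.app n)

theorem shf_wD {F : ℕ ⥤ M} (c : Cocone F) : shf F 1 ≫ wD c = wD c := by
  apply Sigma.hom_ext
  intro n
  rw [wI_shf_assoc, Sigma.ι_desc, Sigma.ι_desc]
  exact c.w _

/-- the map out of the telescope given by a cocone -/
noncomputable def telDesc {F : ℕ ⥤ M} (c : Cocone F) : Tel.obj F ⟶ c.pt :=
  dmDesc (pr _ ≫ coprod.desc (wD c) (wD c)) (wD c) (wD c)
    (by rw [inc_pr_assoc, coprod.desc_comp, Category.id_comp, shf_wD])
    (by rw [inc_pr_assoc, coprod.desc_comp, Category.id_comp])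

@[reassoc]
theorem telI_desc {F : ℕ ⥤ M} (c : Cocone F) (n : ℕ) : telI F n ≫ telDesc c = c.ι.app n := by
  change (wI F n ≫ coprod.inl ≫ dmJ _ _) ≫ dmDesc _ _ _ _ _ = _
  rw [Category.assoc, Category.assoc, dmB_desc, Sigma.ι_desc]

theorem telDesc_nat {F G : ℕ ⥤ M} (c : Cocone F) (d : Cocone G) (a : F ⟶ G) (t : c.pt ⟶ d.pt)
    (h : ∀ n, c.ι.app n ≫ t = a.app n ≫ d.ι.app n) :
    telDesc c ≫ t = Tel.map a ≫ telDesc d := by
  have e : wD c ≫ t = wM a ≫ wD d := by
    apply Sigma.hom_ext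
    intro n
    rw [Sigma.ι_desc_assoc, Sigma.ι_map_assoc, Sigma.ι_desc]
    exact h n
  change dmDesc _ _ _ _ _ ≫ t = telMap a ≫ dmDesc _ _ _ _ _
  apply dm_ext
  · rw [dmK_desc_assoc, telMap, dmK_desc_assoc, Category.assoc, Category.assoc, dmK_desc,
      pr_naturality_assoc, coprod.desc_comp, coprod.map_desc, e]
  · rw [dmB_desc_assoc, telMap, dmB_desc_assoc, Category.assoc, Category.assoc, dmB_desc, e]
  · rw [dmC_desc_assoc, telMap, dmC_desc_assoc, Category.assoc, Category.assoc, dmC_desc, e]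

/-- telescopes of flat objects are flat -/
theorem flat_tel (W : MorphismProperty M) [GoodW W] {F : ℕ ⥤ M} (h : ∀ n, Flat W (F.obj n)) :
    Flat W (Tel.obj F) :=
  have hw : Flat W (wd F) := (flatInput W).flat_sigma h
  flat_DM W (flat_coprod W hw hw) hw hw

/-- **Every class of the telescope comes from a term.** -/
theorem pi_tel_surj (GG : ObjectProperty M) [IsTest GG] {A : M} (hA : GG A) {F : ℕ ⥤ M}
    (x : PiM A (Tel.obj F)) : ∃ (n : ℕ) (y : PiM A (F.obj n)), mapM A (telI F n) y = x := by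
  obtain ⟨z, hz⟩ := pi_dm_surj (u := tU F) (v := tV F) A (fun y hu hv => by
    obtain ⟨a, b, rfl⟩ := pi_coprod _ _ _ y
    rw [mapM_add, ← mapM_comp, ← mapM_comp, coprod.inl_desc, coprod.inr_desc, mapM_id] at hu hv
    rw [mapM_id] at hv
    have hb : b = 0 := eq_zero_of_shf (IsTest.desusp hA) F b
      (add_left_cancel (hu.trans hv.symm))
    rw [hb, add_zero] at hv
    rw [hb, hv, mapM_map_zero, mapM_map_zero, add_zero]) x
  obtain ⟨a, b, rfl⟩ := pi_coprod _ _ _ z
  have hx : mapM A (telW F) (a + b) = x := by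
    rw [mapM_add, ← mapM_comp, ← mapM_comp, ← mapM_congr A (telW_htpy F), ← mapM_add] at hz
    exact hz
  obtain ⟨s, y, hy⟩ := IsTest.exists_factor GG hA (fun n => F.obj n) (a + b)
  refine ⟨s.sup id, mapM A (Sigma.desc (fun i : s =>
    F.map (homOfLE (Finset.le_sup (f := id) i.2 : i.1 ≤ s.sup id)))) y, ?_⟩
  rw [← hx, ← hy, ← mapM_comp, ← mapM_comp]
  refine congrFun (mapM_congr A (MHtpy.sigma (fun i => ?_))) y
  rw [Sigma.ι_desc_assoc, sigmaSub, Sigma.ι_desc_assoc]
  exact telI_htpy F _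

/-- **Recognition of stable equivalences out of a telescope.** -/
theorem piW_telDesc (GG : ObjectProperty M) [IsTest GG] {F : ℕ ⥤ M} (c : Cocone F)
    (hs : ∀ A, GG A → ∀ x : PiM A c.pt, ∃ (n : ℕ) (y : PiM A (F.obj n)),
      mapM A (c.ι.app n) y = x)
    (hi : ∀ A, GG A → ∀ (n : ℕ) (y : PiM A (F.obj n)), mapM A (c.ι.app n) y = 0 →
      ∃ (m : ℕ) (h : n ≤ m), mapM A (F.map (homOfLE h)) y = 0) : piW GG (telDesc c) := by
  rw [piW_iff]
  intro A hA
  constructor
  · rw [mapM_injective_iff]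
    intro x hx
    obtain ⟨n, y, rfl⟩ := pi_tel_surj GG hA x
    rw [← mapM_comp, telI_desc] at hx
    obtain ⟨m, h, e⟩ := hi A hA n y hx
    rw [← mapM_congr A (telI_htpy F h), mapM_comp, e, mapM_map_zero]
  · intro x
    obtain ⟨n, y, rfl⟩ := hs A hA x
    exact ⟨mapM A (telI F n) y, by rw [← mapM_comp, telI_desc]⟩

end Vale.Agent.P251CF
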