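import Vale.Agent.P251.H.PuppeInst
import Vale.Agent.P251.H.CofM

/-!
# P251C: sequences of h-cofibrations and the class of cell objects (definitions)
-/

open CategoryTheory MonoidalCategory Limits

namespace Vale.Agent.P251CF

open Vale.Agent.P251.G Vale.Agent.P251.G.LC Vale.Agent.P251.H Vale.Agent.P251.H.StabInput

universe v u

variable {M : Type u} [Category.{v} M] [MonoidalCategory M] [SymmetricCategory M]
    [MonoidalClosed M] [HasZeroMorphisms M] [HasColimitsOfSize.{0, 0} M] [StabInput M]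

/-- the successor map of a sequence -/
abbrev sc {C : Type u} [Category.{v} C] (F : ℕ ⥤ C) (n : ℕ) : F.obj n ⟶ F.obj (n + 1) :=
  F.map (homOfLE (Nat.le_succ n))

/-- a sequence of h-cofibrations -/
def CofSeq (F : ℕ ⥤ M) : Prop := ∀ n, HCof (sc F n)

variable (M) in
/-- The cells are small with respect to sequences of h-cofibrations. -/
def SeqSmall : Prop :=
  ∀ (F : ℕ ⥤ M), CofSeq F → ∀ (c : Cocone F), IsColimit c →
    (∀ k, Mono (c.ι.app k)) ∧ ∀ (n : ℕ) (K : LC) (a : (cell n K : M) ⟶ c.pt),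
      ∃ (k : ℕ) (a₁ : (cell n K : M) ⟶ F.obj k), a₁ ≫ c.ι.app k = a

/-- generating maps: `Z ◁ J i` with `Z` in the class `P` and `i` a cofibration of finite cell
spaces (up to isomorphism) -/
def GenMap (P : ObjectProperty M) : MorphismProperty M := fun A B g =>
  ∃ (Z : M) (K K' : LC) (i : K ⟶ K') (a : A ≅ Z ⊗ (J M).obj K) (b : B ≅ Z ⊗ (J M).obj K'),
    P Z ∧ FC K ∧ FC K' ∧ Cofib i ∧ a.hom ≫ Z ◁ (J M).map i = g ≫ b.hom

/-- attaching maps: cobase changes of coproducts of generating maps -/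
def Att (P : ObjectProperty M) : MorphismProperty M := fun X Y k =>
  ∃ (ι : Type) (A B : ι → M) (g : ∀ x, A x ⟶ B x) (u : ∐ A ⟶ X) (j : ∐ B ⟶ Y),
    (∀ x, GenMap P (g x)) ∧ IsPushout (Limits.Sigma.map g) u j k

/-- classes closed under the cell constructions -/
structure CellClosed (P : ObjectProperty M) : Prop where
  iso {X Y : M} : (X ≅ Y) → P X → P Y
  cell (n : ℕ) {K : LC} : FC K → P (cell n K)
  sigma {ι : Type} (X : ι → M) : (∀ i, P (X i)) → P (∐ X)
  att {X Y : M} {k : X ⟶ Y} : Att P k → P X → P Y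
  seq (F : ℕ ⥤ M) (c : Cocone F) : IsColimit c → (∀ n, Att P (sc F n)) →
    (∀ n, P (F.obj n)) → P c.pt

variable (M) in
/-- the cell objects: the smallest class closed under the cell constructions -/
def CC : ObjectProperty M := fun X => ∀ P : ObjectProperty M, CellClosed P → P X

theorem GenMap.mono {P P' : ObjectProperty M} (h : ∀ X, P X → P' X) {A B : M} {g : A ⟶ B}
    (hg : GenMap P g) : GenMap P' g := by
  obtain ⟨Z, K, K', i, a, b, h1, h2⟩ := hg
  exact ⟨Z, K, K', i, a, b, h Z h1, h2⟩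

theorem Att.mono {P P' : ObjectProperty M} (h : ∀ X, P X → P' X) {X Y : M} {k : X ⟶ Y}
    (hk : Att P k) : Att P' k := by
  obtain ⟨ι, A, B, g, u, j, h1, h2⟩ := hk
  exact ⟨ι, A, B, g, u, j, fun x => (h1 x).mono h, h2⟩

theorem GenMap.hCof {P : ObjectProperty M} {A B : M} {g : A ⟶ B} (hg : GenMap P g) : HCof g := by
  obtain ⟨Z, K, K', i, a, b, -, -, -, hi, e⟩ := hg
  have h : HCof ((J M).map i) := fun Z f H h => exists_ext_of_cofib hi Z f H h
  exact (h.whiskerLeft Z).congr_iso a b e

theorem Att.hCof {P : ObjectProperty M} {X Y : M} {k : X ⟶ Y} (hk : Att P k) : HCof k := by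
  obtain ⟨ι, A, B, g, u, j, h1, h2⟩ := hk
  exact HCof.of_isPushout h2 (HCof.sigma g (fun x => (h1 x).hCof))

/-- induction principle for cell objects -/
theorem CC.ind {P : ObjectProperty M} (hP : CellClosed P) {X : M} (h : CC M X) : P X := h P hP

theorem cellClosed_CC : CellClosed (CC M) where
  iso e h P hP := hP.iso e (h P hP)
  cell n _ hK _ hP := hP.cell n hK
  sigma X h P hP := hP.sigma X (fun i => h i P hP)
  att hk h P hP := hP.att (hk.mono (fun X hX => hX P hP)) (h P hP)
  seq F c hc hF h P hP :=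
    hP.seq F c hc (fun n => (hF n).mono (fun X hX => hX P hP)) (fun n => h n P hP)

end Vale.Agent.P251CF
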