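import Vale.Agent.P251.H.PuppeInst
import Vale.Agent.P251.H.GoodPi
import Vale.Agent.P251.H.CofM

/-!
# P251C: double mapping cylinders and the Mayer-Vietoris argument
-/

open CategoryTheory MonoidalCategory Limits

namespace Vale.Agent.P251CF

open Vale.Agent.P251.G Vale.Agent.P251.G.LC Vale.Agent.P251.H Vale.Agent.P251.H.StabInput
open Vale.Agent.P251.H.LP ZeroObject

universe v u

variable {M : Type u} [Category.{v} M] [MonoidalCategory M] [SymmetricCategory M]
    [MonoidalClosed M] [HasZeroMorphisms M] [HasColimitsOfSize.{0, 0} M] [StabInput M]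

open Functor.LaxMonoidal Functor.OplaxMonoidal

theorem pz_eq (A X : M) : pz A X = 0 := by
  rw [← mapM_zero_pz A (X := X) 0, mapM_zero_hom]

theorem mapM_null (A : M) {X Y : M} {f : X ⟶ Y} (hf : MHtpy f 0) (x : PiM A X) :
    mapM A f x = 0 := by
  rw [mapM_of_mHtpy_zero A hf, pz_eq]

/-- exactness for the cofibre of an h-cofibration -/
theorem exact_cof {A B Q : M} {i : A ⟶ B} {q : B ⟶ Q} (hi : HCof i) (hq : IsCofibre i q)
    (T : M) (y : PiM T B) (hy : mapM T q y = 0) : ∃ x, mapM T i x = y := by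
  have hC := IsPushout.of_hasPushout (coneBase A) i
  have he : coneBase A ≫ (0 : A ⊗ CI M ⟶ Q) = i ≫ q := by rw [comp_zero, hq.comp_eq_zero]
  obtain ⟨g, h1, -⟩ := hi.exists_cone_inverse hC (isZero_zero M)
    (hq.isPushout (isZero_zero M) 0 0) (hC.desc 0 q he) (hC.inl_desc _ _ _) (hC.inr_desc _ _ _)
  refine ((ex_cone hC).of_comp (b' := q) g ?_).exact T y hy
  have h3 := MHtpy.comp_left (Limits.pushout.inr (coneBase A) i) h1
  rwa [Category.comp_id, hC.inr_desc_assoc] at h3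

/-- classes in a binary coproduct -/
theorem pi_coprod (T X Y : M) (y : PiM T (X ⨿ Y)) :
    ∃ a b, y = mapM T coprod.inl a + mapM T coprod.inr b := by
  obtain ⟨a, ha⟩ := exact_cof (hCof_inl X Y) (isCofibre_inl X Y) T
    (y - mapM T coprod.inr (mapM T (coprod.desc 0 (𝟙 Y)) y)) (by
      rw [mapM_sub, ← mapM_comp T coprod.inr, coprod.inr_desc, mapM_id, sub_self])
  exact ⟨a, _, by rw [ha, sub_add_cancel]⟩

theorem flat_coprod (W : MorphismProperty M) [GoodW W] {X Y : M} (hX : Flat W X)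
    (hY : Flat W Y) : Flat W (X ⨿ Y) :=
  (flatInput W).flat_ext (hCof_inl X Y) (isCofibre_inl X Y) hX hY

/-- the cone is the cofibre of the end of the cylinder -/
theorem isCofibre_cylCone (B : M) : IsCofibre (inc 1 B) (cylCone B) := by
  have hp := isPushout_tensor B (injective_point (X := II) 1)
    (isPushout_endColl LC.isZero_empty 0 0)
  have h : IsCofibre (B ◁ (J M).map (point (X := II) 1)) (B ◁ (J M).map endColl) :=
    ⟨_, StabInput.isZero_tensor_right B isZero_empty, _, _, hp⟩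
  refine h.of_iso (whiskerLeftIso B (Functor.Monoidal.εIso (J M)).symm ≪≫ ρ_ B) (Iso.refl _)
    (Iso.refl _) ?_ ?_
  · simp [inc_def]
  · simp [cylCone]

/-- the two ends of the cylinder -/
noncomputable abbrev ends (A : M) : A ⨿ A ⟶ A ⊗ I M := coprod.desc (inc 0 A) (inc 1 A)

/-- the quotient of the cylinder by its ends -/
noncomputable def cylS (A : M) : A ⊗ I M ⟶ A ⊗ S M := cylCone A ≫ ccoll A

@[reassoc]
theorem cylS_nat {A B : M} (f : A ⟶ B) : f ▷ I M ≫ cylS B = cylS A ≫ f ▷ S M := by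
  rw [cylS, cylS, cylCone_naturality_assoc, ccoll_naturality, Category.assoc]

theorem inc_zero_cylS (A : M) : inc 0 A ≫ cylS A = 0 := by
  rw [cylS, inc_zero_cylCone_assoc, coneBase_ccoll]

theorem inc_one_cylS (A : M) : inc 1 A ≫ cylS A = 0 := by
  rw [cylS, inc_one_cylCone_assoc, zero_comp]

theorem isCofibre_ccoll (A : M) : IsCofibre (coneBase A) (ccoll A) :=
  ⟨0, isZero_zero M, 0, 0, isPushout_ccoll A (isZero_zero M) 0 0⟩

theorem cylS_ext {A Z : M} {f g : A ⊗ S M ⟶ Z} (h : cylS A ≫ f = cylS A ≫ g) : f = g := by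
  apply (isCofibre_ccoll A).hom_ext
  apply (isCofibre_cylCone A).hom_ext
  rwa [cylS, Category.assoc, Category.assoc] at h

theorem cylS_desc {A Z : M} (f : A ⊗ I M ⟶ Z) (h0 : inc 0 A ≫ f = 0) (h1 : inc 1 A ≫ f = 0) :
    ∃ g : A ⊗ S M ⟶ Z, cylS A ≫ g = f := by
  obtain ⟨g, hg⟩ := (isCofibre_cylCone A).exists_desc f h1
  obtain ⟨g', hg'⟩ := (isCofibre_ccoll A).exists_desc g (by
    rw [← inc_zero_cylCone, Category.assoc, hg, h0])
  exact ⟨g', by rw [cylS, Category.assoc, hg', hg]⟩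

theorem isCofibre_ends (A : M) : IsCofibre (ends A) (cylS A) := by
  have w : ends A ≫ cylS A = (0 : A ⨿ A ⟶ (0 : M)) ≫ 0 := by
    rw [zero_comp]
    apply coprod.hom_ext
    · rw [coprod.inl_desc_assoc, inc_zero_cylS, comp_zero]
    · rw [coprod.inr_desc_assoc, inc_one_cylS, comp_zero]
  have hs : ∀ s : PushoutCocone (ends A) (0 : A ⨿ A ⟶ (0 : M)),
      ∃ g : A ⊗ S M ⟶ s.pt, cylS A ≫ g = s.inl := by
    intro s
    have h := s.condition
    rw [zero_comp] at h
    refine cylS_desc s.inl ?_ ?_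
    · have := coprod.inl ≫= h
      rwa [coprod.inl_desc_assoc, comp_zero] at this
    · have := coprod.inr ≫= h
      rwa [coprod.inr_desc_assoc, comp_zero] at this
  refine ⟨0, isZero_zero M, 0, 0, ⟨w⟩, ⟨PushoutCocone.IsColimit.mk _ (fun s => (hs s).choose)
    (fun s => (hs s).choose_spec) (fun s => (isZero_zero M).eq_of_src _ _)
    (fun s m h1 _ => cylS_ext (h1.trans (hs s).choose_spec.symm))⟩⟩

/-- the reversal of the cylinder -/
noncomputable def rv (A : M) : A ⊗ I M ⟶ A ⊗ I M := A ◁ (J M).map revII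

@[reassoc]
theorem inc_zero_rv (A : M) : inc 0 A ≫ rv A = inc 1 A :=
  inc_comp_map A (by rw [point_revII, unitInterval.symm_zero])

@[reassoc]
theorem inc_one_rv (A : M) : inc 1 A ≫ rv A = inc 0 A :=
  inc_comp_map A (by rw [point_revII, unitInterval.symm_one])

@[reassoc]
theorem rv_rv (A : M) : rv A ≫ rv A = 𝟙 _ := by
  have h : revII ≫ revII = 𝟙 II := by
    apply LC.hom_ext
    intro x
    change ((unitInterval.symm (unitInterval.symm x) : unitInterval) : OnePoint unitInterval) = _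
    rw [unitInterval.symm_symm]
    rfl
  rw [rv, ← MonoidalCategory.whiskerLeft_comp, ← Functor.map_comp, h, CategoryTheory.Functor.map_id,
    MonoidalCategory.whiskerLeft_id]

@[reassoc]
theorem rv_nat {A B : M} (f : A ⟶ B) : f ▷ I M ≫ rv B = rv A ≫ f ▷ I M :=
  (whisker_exchange _ _).symm

theorem exists_flip (A : M) : ∃ g : A ⊗ S M ⟶ A ⊗ S M, cylS A ≫ g = rv A ≫ cylS A :=
  cylS_desc _ (by rw [inc_zero_rv_assoc, inc_one_cylS]) (by rw [inc_one_rv_assoc, inc_zero_cylS])

section DM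

variable {A B C : M} (u : A ⟶ B) (v : A ⟶ C)

/-- the double mapping cylinder -/
noncomputable def DM : M := pushout (ends A) (coprod.map u v)

/-- the cylinder part -/
noncomputable def dmK : A ⊗ I M ⟶ DM u v := pushout.inl _ _

/-- the two ends -/
noncomputable def dmJ : B ⨿ C ⟶ DM u v := pushout.inr _ _

theorem dm_isPushout : IsPushout (ends A) (coprod.map u v) (dmK u v) (dmJ u v) :=
  IsPushout.of_hasPushout _ _

@[reassoc]
theorem inc_zero_dmK : inc 0 A ≫ dmK u v = u ≫ coprod.inl ≫ dmJ u v := by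
  have := coprod.inl ≫= (dm_isPushout u v).w
  rwa [coprod.inl_desc_assoc, coprod.inl_map_assoc] at this

@[reassoc]
theorem inc_one_dmK : inc 1 A ≫ dmK u v = v ≫ coprod.inr ≫ dmJ u v := by
  have := coprod.inr ≫= (dm_isPushout u v).w
  rwa [coprod.inr_desc_assoc, coprod.inr_map_assoc] at this

variable {u v}

/-- maps out of the double mapping cylinder -/
noncomputable def dmDesc {Z : M} (H : A ⊗ I M ⟶ Z) (b : B ⟶ Z) (c : C ⟶ Z)
    (h0 : inc 0 A ≫ H = u ≫ b) (h1 : inc 1 A ≫ H = v ≫ c) : DM u v ⟶ Z :=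
  (dm_isPushout u v).desc H (coprod.desc b c) (by
    apply coprod.hom_ext
    · rw [coprod.inl_desc_assoc, coprod.inl_map_assoc, coprod.inl_desc, h0]
    · rw [coprod.inr_desc_assoc, coprod.inr_map_assoc, coprod.inr_desc, h1])

section

variable {Z : M} (H : A ⊗ I M ⟶ Z) (b : B ⟶ Z) (c : C ⟶ Z)
    (h0 : inc 0 A ≫ H = u ≫ b) (h1 : inc 1 A ≫ H = v ≫ c)

@[reassoc] theorem dmK_desc : dmK u v ≫ dmDesc H b c h0 h1 = H :=
  (dm_isPushout u v).inl_desc _ _ _

@[reassoc] theorem dmB_desc : coprod.inl ≫ dmJ u v ≫ dmDesc H b c h0 h1 = b := by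
  rw [dmDesc, (dm_isPushout u v).inr_desc, coprod.inl_desc]

@[reassoc] theorem dmC_desc : coprod.inr ≫ dmJ u v ≫ dmDesc H b c h0 h1 = c := by
  rw [dmDesc, (dm_isPushout u v).inr_desc, coprod.inr_desc]

end

theorem dm_ext {Z : M} {f g : DM u v ⟶ Z} (hk : dmK u v ≫ f = dmK u v ≫ g)
    (hb : coprod.inl ≫ dmJ u v ≫ f = coprod.inl ≫ dmJ u v ≫ g)
    (hc : coprod.inr ≫ dmJ u v ≫ f = coprod.inr ≫ dmJ u v ≫ g) : f = g :=
  (dm_isPushout u v).hom_ext hk (coprod.hom_ext hb hc)

theorem flat_DM (W : MorphismProperty M) [GoodW W] (hA : Flat W A) (hB : Flat W B)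
    (hC : Flat W C) : Flat W (DM u v) :=
  (flatInput W).flat_pushout (dm_isPushout u v) (hCof_ends A) (flat_coprod W hA hA)
    ((flatInput W).flat_cyl hA) (flat_coprod W hB hC)

theorem null_of_cone {P Y Z : M} (a : P ⟶ Y ⊗ CI M) (b : Y ⊗ CI M ⟶ Z) : MHtpy (a ≫ b) 0 := by
  have h1 := ((mHtpy_id_cone Y).comp_right b).trans (MHtpy.of_eq zero_comp)
  rw [Category.id_comp] at h1
  exact (MHtpy.comp_left a h1).trans (MHtpy.of_eq comp_zero)

/-- **Mayer-Vietoris**: if `(u, v)` is injective on classes out of `L ⊗ T`, then every class of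
the double mapping cylinder out of `T` comes from the two ends. -/
theorem pi_dm_surj (T : M)
    (h : ∀ y : PiM ((L : M) ⊗ T) A, mapM _ u y = 0 → mapM _ v y = 0 → y = 0)
    (x : PiM T (DM u v)) : ∃ z, mapM T (dmJ u v) z = x := by
  obtain ⟨r, hk, hj, hr⟩ := IsCofibre.of_pushout (dm_isPushout u v) (isCofibre_ends A)
  refine exact_cof (HCof.of_isPushout (dm_isPushout u v) (hCof_ends A)) hr T x ?_
  have hu : MHtpy (r ≫ u ▷ S M) 0 := by
    have e : r ≫ u ▷ S M = dmDesc (u ▷ I M ≫ cylCone B) (coneBase B) 0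
        (by rw [inc_naturality_assoc, inc_zero_cylCone])
        (by rw [inc_naturality_assoc, inc_one_cylCone, comp_zero, comp_zero]) ≫ ccoll B := by
      apply dm_ext
      · rw [reassoc_of% hk, dmK_desc_assoc, Category.assoc, ← cylS_nat, cylS]
      · rw [reassoc_of% hj, dmB_desc_assoc, coneBase_ccoll, zero_comp, comp_zero]
      · rw [reassoc_of% hj, dmC_desc_assoc, zero_comp, zero_comp, comp_zero]
    rw [e]
    exact null_of_cone _ _
  have hv : MHtpy (r ≫ v ▷ S M) 0 := by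
    obtain ⟨g, hg⟩ := exists_flip C
    have e : r ≫ v ▷ S M = dmDesc (v ▷ I M ≫ rv C ≫ cylCone C) 0 (coneBase C)
        (by rw [inc_naturality_assoc, inc_zero_rv_assoc, inc_one_cylCone, comp_zero, comp_zero])
        (by rw [inc_naturality_assoc, inc_one_rv_assoc, inc_zero_cylCone]) ≫ ccoll C ≫ g := by
      apply dm_ext
      · rw [reassoc_of% hk, dmK_desc_assoc, Category.assoc, Category.assoc, ← cylS_nat,
          ← Category.assoc (cylCone C), ← cylS, hg, rv_rv_assoc]
      · rw [reassoc_of% hj, dmB_desc_assoc, zero_comp, zero_comp, comp_zero]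
      · rw [reassoc_of% hj, dmC_desc_assoc, coneBase_ccoll_assoc, zero_comp, zero_comp,
          comp_zero]
    rw [e]
    exact null_of_cone _ _
  apply (bijective_unsuspPi T A).1
  rw [← pz_eq, unsuspPi_pz, pz_eq]
  apply h
  · rw [← unsuspPi_map, ← mapM_comp, mapM_null T hu, ← pz_eq, unsuspPi_pz, pz_eq]
  · rw [← unsuspPi_map, ← mapM_comp, mapM_null T hv, ← pz_eq, unsuspPi_pz, pz_eq]

end DM

end Vale.Agent.P251CF
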