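import Vale.Agent.P251CF.Tel
import Vale.Agent.P251CB.Stage
import Vale.Agent.P251CL.Sph

/-!
# P251C: functorial flat replacement
-/

open CategoryTheory MonoidalCategory Limits

namespace Vale.Agent.P251CF

open Vale.Agent.P251.G Vale.Agent.P251.G.LC Vale.Agent.P251.H Vale.Agent.P251.H.StabInput
open Vale.Agent.P251 Vale.Agent.P251CB

universe u

variable (M : Type u) [Category.{0} M] [MonoidalCategory M] [SymmetricCategory M]
    [MonoidalClosed M] [HasZeroMorphisms M] [HasColimitsOfSize.{0, 0} M] [StabInput M]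

/-- the flat replacement functor -/
noncomputable def QT : M ⥤ M := stF M ⋙ Tel

/-- the augmentation of the flat replacement -/
noncomputable def qT : QT M ⟶ 𝟭 M where
  app X := telDesc (aug X)
  naturality _ _ v := (telDesc_nat (aug _) (aug _) ((stF M).map v) v (aug_nat v)).symm

variable {M}

theorem flat_QT (W : MorphismProperty M) [GoodW W] (X : M) : Flat W ((QT M).obj X) :=
  flat_tel W (st_flat W X)

theorem piW_qT (X : M) : piW (cells I.FCP) ((qT M).app X) :=
  (P251CL.piW_sph_iff _).mp (piW_telDesc (cells IsSph) (aug X) (fun A hA x => st_surj X A hA x)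
    (fun A hA n y hy => st_ker X A hA n y hy))

variable (M) in
/-- **Functorial flat replacement.** -/
theorem exists_repl : ∃ (Q : M ⥤ M) (q : Q ⟶ 𝟭 M), ∀ X : M,
    Flat (piW (cells I.FCP)) (Q.obj X) ∧ piW (cells I.FCP) (q.app X) :=
  ⟨QT M, qT M, fun X => ⟨flat_QT _ X, piW_qT X⟩⟩

end Vale.Agent.P251CF
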