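import Vale.Agent.P251CF.Defs

/-!
# P251C: stable homotopy classes into sequential colimits of h-cofibrations
-/

open CategoryTheory MonoidalCategory Limits

namespace Vale.Agent.P251CF

open Vale.Agent.P251.G Vale.Agent.P251.G.LC Vale.Agent.P251.H Vale.Agent.P251.H.StabInput

universe v u

variable {M : Type u} [Category.{v} M] [MonoidalCategory M] [SymmetricCategory M]
    [MonoidalClosed M] [HasZeroMorphisms M] [HasColimitsOfSize.{0, 0} M] [StabInput M]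

/-- objects isomorphic to a cell -/
def IsCell (A : M) : Prop := ∃ (n : ℕ) (K : LC), Nonempty (A ≅ cell n K)

theorem IsCell.cyl {A : M} (h : IsCell A) : IsCell (A ⊗ I M) := by
  obtain ⟨n, K, ⟨e⟩⟩ := h
  exact ⟨n, K ⊗ II, ⟨whiskerRightIso e _ ≪≫ α_ _ _ _ ≪≫
    whiskerLeftIso _ (Functor.Monoidal.μIso (J M) K II)⟩⟩

theorem IsCell.pw {A : M} (h : IsCell A) (k : ℕ) : IsCell ((stab M).coPt.pw k ⟨A⟩).obj := by
  have : Fact (∀ K : LC, (⊤ : ObjectProperty LC) K → (⊤ : ObjectProperty LC) (RR ⊗ K)) :=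
    ⟨fun _ _ => trivial⟩
  obtain ⟨n, K, e⟩ := h
  obtain ⟨m, K', -, e'⟩ := IsTest.pw (cells (⊤ : ObjectProperty LC) : ObjectProperty M)
    (A := A) ⟨n, K, trivial, e⟩ k
  exact ⟨m, K', e'⟩

theorem isCell_of_cells {AA : ObjectProperty LC} {A : M} (h : (cells AA : ObjectProperty M) A) :
    IsCell A := by
  obtain ⟨n, K, -, e⟩ := h
  exact ⟨n, K, e⟩

section

variable (hS : SeqSmall M) {F : ℕ ⥤ M} (hF : CofSeq F) {c : Cocone F} (hc : IsColimit c)

include hS hF hc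

theorem factor_seq {A : M} (hA : IsCell A) (a : A ⟶ c.pt) :
    ∃ (k : ℕ) (a₁ : A ⟶ F.obj k), a₁ ≫ c.ι.app k = a := by
  obtain ⟨n, K, ⟨e⟩⟩ := hA
  obtain ⟨k, a₁, h⟩ := (hS F hF c hc).2 n K (e.inv ≫ a)
  exact ⟨k, e.hom ≫ a₁, by rw [Category.assoc, h, Iso.hom_inv_id_assoc]⟩

theorem htpy_seq {A : M} (hA : IsCell A) {k : ℕ} (a b : A ⟶ F.obj k)
    (h : MHtpy (a ≫ c.ι.app k) (b ≫ c.ι.app k)) :
    ∃ (m : ℕ) (hm : k ≤ m), MHtpy (a ≫ F.map (homOfLE hm)) (b ≫ F.map (homOfLE hm)) := by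
  obtain ⟨H, h0, h1⟩ := h
  obtain ⟨l, H', hH⟩ := factor_seq hS hF hc hA.cyl H
  have hm := (hS F hF c hc).1 (max k l)
  refine ⟨max k l, le_max_left k l, H' ≫ F.map (homOfLE (le_max_right k l)), ?_, ?_⟩
  · rw [← cancel_mono (c.ι.app (max k l)), Category.assoc, Category.assoc, Category.assoc,
      c.w, c.w, hH]
    exact h0
  · rw [← cancel_mono (c.ι.app (max k l)), Category.assoc, Category.assoc, Category.assoc,
      c.w, c.w, hH]
    exact h1

/-- every stable class comes from a stage -/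
theorem pi_seq_surj {A : M} (hA : IsCell A) (x : PiM A c.pt) :
    ∃ (k : ℕ) (y : PiM A (F.obj k)), mapM A (c.ι.app k) y = x := by
  obtain ⟨l, x, rfl⟩ := CoPt.cl_surj x
  obtain ⟨x, rfl⟩ := HM.proj_map_surjective x
  obtain ⟨k, g, hg⟩ := factor_seq hS hF hc (hA.pw l) x
  refine ⟨k, (stab M).coPt.cl l ((HM.proj M).map g), ?_⟩
  refine (CoPt.map_cl _ _ _ _ _).trans ?_
  rw [← hg]
  rfl

/-- stable classes which agree in the colimit agree at a later stage -/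
theorem pi_seq_inj {A : M} (hA : IsCell A) {k : ℕ} (x y : PiM A (F.obj k))
    (h : mapM A (c.ι.app k) x = mapM A (c.ι.app k) y) :
    ∃ (m : ℕ) (hm : k ≤ m), mapM A (F.map (homOfLE hm)) x = mapM A (F.map (homOfLE hm)) y := by
  obtain ⟨l, x, y, rfl, rfl⟩ := CoPt.cl_surj₂ x y
  rw [mapM, CoPt.map_cl, CoPt.map_cl, CoPt.cl_eq_iff'] at h
  obtain ⟨l', hl, h⟩ := h
  rw [← Category.assoc, ← Category.assoc] at h
  obtain ⟨a, ha⟩ := HM.proj_map_surjective ((stab M).coPt.tr hl _ ≫ x)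
  obtain ⟨b, hb⟩ := HM.proj_map_surjective ((stab M).coPt.tr hl _ ≫ y)
  rw [← ha, ← hb] at h
  have h' : MHtpy (a ≫ c.ι.app k) (b ≫ c.ι.app k) := (HM.proj_map_eq_iff _ _).mp h
  obtain ⟨m, hm, h2⟩ := htpy_seq hS hF hc (hA.pw l') a b h'
  refine ⟨m, hm, ?_⟩
  rw [mapM, CoPt.map_cl, CoPt.map_cl, CoPt.cl_eq_iff']
  refine ⟨l', hl, ?_⟩
  rw [← Category.assoc, ← Category.assoc, ← ha, ← hb]
  exact HM.sound h2

end

/-- `piW` is closed under sequential colimits of h-cofibrations -/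
theorem piW_seq (hS : SeqSmall M) {GG : ObjectProperty M} (hG : ∀ A, GG A → IsCell A)
    {F G : ℕ ⥤ M} (hF : CofSeq F) (hG' : CofSeq G) {c : Cocone F} {d : Cocone G}
    (hc : IsColimit c) (hd : IsColimit d) (a : F ⟶ G) (ha : ∀ n, piW GG (a.app n))
    (t : c.pt ⟶ d.pt) (ht : ∀ n, c.ι.app n ≫ t = a.app n ≫ d.ι.app n) : piW GG t := by
  rw [piW_iff]
  intro A hA
  have hb : ∀ n, Function.Bijective (mapM A (a.app n)) := fun n => (piW_iff _).mp (ha n) A hA
  have e1 : ∀ {k m : ℕ} (h : k ≤ m) (y : PiM A (F.obj k)),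
      mapM A (c.ι.app m) (mapM A (F.map (homOfLE h)) y) = mapM A (c.ι.app k) y := by
    intro k m h y
    rw [← mapM_comp, c.w]
  constructor
  · intro x x' hx
    obtain ⟨k, y, rfl⟩ := pi_seq_surj hS hF hc (hG A hA) x
    obtain ⟨k', y', rfl⟩ := pi_seq_surj hS hF hc (hG A hA) x'
    rw [← e1 (le_max_left k k') y, ← e1 (le_max_right k k') y'] at hx ⊢
    generalize mapM A (F.map (homOfLE (le_max_left k k'))) y = z at hx ⊢
    generalize mapM A (F.map (homOfLE (le_max_right k k'))) y' = z' at hx ⊢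
    rw [← mapM_comp, ← mapM_comp, ht, mapM_comp, mapM_comp] at hx
    obtain ⟨m, hm, h⟩ := pi_seq_inj hS hG' hd (hG A hA) _ _ hx
    rw [← mapM_comp, ← mapM_comp, ← a.naturality, mapM_comp, mapM_comp] at h
    rw [← e1 hm z, ← e1 hm z', (hb m).1 h]
  · intro y
    obtain ⟨k, y, rfl⟩ := pi_seq_surj hS hG' hd (hG A hA) y
    obtain ⟨x, rfl⟩ := (hb k).2 y
    exact ⟨mapM A (c.ι.app k) x, by rw [← mapM_comp, ht, mapM_comp]⟩

theorem CofSeq.tensorRight {F : ℕ ⥤ M} (hF : CofSeq F) (X : M) : CofSeq (F ⋙ tensorRight X) :=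
  fun n => (hF n).whiskerRight X

theorem CofSeq.tensorLeft {F : ℕ ⥤ M} (hF : CofSeq F) (X : M) : CofSeq (F ⋙ tensorLeft X) :=
  fun n => (hF n).whiskerLeft X

/-- sequential colimits of flat objects along h-cofibrations are flat -/
theorem flat_seq (hS : SeqSmall M) {GG : ObjectProperty M} (hG : ∀ A, GG A → IsCell A)
    {F : ℕ ⥤ M} (hF : CofSeq F) {c : Cocone F} (hc : IsColimit c)
    (h : ∀ n, Flat (piW GG) (F.obj n)) : Flat (piW GG) c.pt := by
  intro X Y f hf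
  refine piW_seq hS hG (hF.tensorRight X) (hF.tensorRight Y)
    (isColimitOfPreserves (tensorRight X) hc) (isColimitOfPreserves (tensorRight Y) hc)
    { app := fun n => F.obj n ◁ f
      naturality := fun _ _ g => (whisker_exchange (F.map g) f).symm } (fun n => h n f hf)
    (c.pt ◁ f) (fun n => (whisker_exchange (c.ι.app n) f).symm)

/-- `piW` is closed under retracts -/
theorem piW_retract {GG : ObjectProperty M} {X Y X' Y' : M} {f : X ⟶ Y} {f' : X' ⟶ Y'}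
    (i : X ⟶ X') (r : X' ⟶ X) (j : Y ⟶ Y') (s : Y' ⟶ Y) (hi : i ≫ r = 𝟙 X) (hj : j ≫ s = 𝟙 Y)
    (w₁ : i ≫ f' = f ≫ j) (w₂ : r ≫ f = f' ≫ s) (h : piW GG f') : piW GG f := by
  rw [piW_iff] at h ⊢
  intro A hA
  constructor
  · intro x y e
    have e' := congrArg (mapM A j) e
    rw [← mapM_comp, ← mapM_comp, ← w₁, mapM_comp, mapM_comp] at e'
    have e'' := congrArg (mapM A r) ((h A hA).1 e')
    rwa [← mapM_comp, ← mapM_comp, hi, mapM_id, mapM_id] at e''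
  · intro y
    obtain ⟨x, hx⟩ := (h A hA).2 (mapM A j y)
    exact ⟨mapM A r x, by rw [← mapM_comp, w₂, mapM_comp, hx, ← mapM_comp, hj, mapM_id]⟩

/-- retracts of flat objects are flat -/
theorem flat_retract {GG : ObjectProperty M} {Z Z' : M} (i : Z ⟶ Z') (r : Z' ⟶ Z)
    (hi : i ≫ r = 𝟙 Z) (h : Flat (piW GG) Z') : Flat (piW GG) Z := by
  intro X Y f hf
  refine piW_retract (i ▷ X) (r ▷ X) (i ▷ Y) (r ▷ Y) ?_ ?_ (whisker_exchange i f).symm
    (whisker_exchange r f).symm (h f hf)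
  · rw [← comp_whiskerRight, hi, id_whiskerRight]
  · rw [← comp_whiskerRight, hi, id_whiskerRight]

end Vale.Agent.P251CF
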